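import Vale.Agent.Results.P050.LocalSqrt

/-!
# P050: the local Sidorenko inequality, stated with densities
-/

namespace Vale.Agent.Results.P050.DensityForm

open Finset

/-- Let `H` be a bipartite graph with `m` edges and maximum degree `Δ`, and let `W` be a symmetric
real function on `Ω × Ω`, `Ω` a finite nonempty set (a step kernel with `|Ω|` equal steps).  Put
`p = t(K₂, W) = |Ω|⁻² ∑ W(a, b)` and suppose `p > 0` and `|W - p| ≤ ε p` everywhere, where
`ε ≤ 2^(1/m) - 1` or `ε ≤ 1 / (12 sqrt (m Δ))`.  Then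
`t(H, W) = |Ω|^(-|V|) ∑_x ∏_{uv ∈ E(H)} W(x_u, x_v) ≥ p^m`. -/
theorem result {V Ω : Type*} [Fintype V] [DecidableEq V] [Fintype Ω] [Nonempty Ω]
    (H : SimpleGraph V) [DecidableRel H.Adj] (hH : H.Colorable 2)
    (W : Ω → Ω → ℝ) (hsym : ∀ a b, W a b = W b a) (ε : ℝ)
    (hp : 0 < (∑ a, ∑ b, W a b) / (Fintype.card Ω : ℝ) ^ 2)
    (hW : ∀ a b, |W a b - (∑ a, ∑ b, W a b) / (Fintype.card Ω : ℝ) ^ 2| ≤
      ε * ((∑ a, ∑ b, W a b) / (Fintype.card Ω : ℝ) ^ 2))
    (hε : ε ≤ (2 : ℝ) ^ ((1 : ℝ) / (H.edgeFinset.card : ℝ)) - 1 ∨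
      ε ≤ 1 / (12 * Real.sqrt ((H.edgeFinset.card : ℝ) * (H.maxDegree : ℝ)))) :
    ((∑ a, ∑ b, W a b) / (Fintype.card Ω : ℝ) ^ 2) ^ H.edgeFinset.card ≤
      (∑ x : V → Ω, ∏ e ∈ H.edgeFinset,
        Sym2.lift ⟨fun u v => W (x u) (x v), fun u v => hsym (x u) (x v)⟩ e) /
        (Fintype.card Ω : ℝ) ^ Fintype.card V := by
  classical
  obtain ⟨p, hpdef⟩ : ∃ p, p = (∑ a, ∑ b, W a b) / (Fintype.card Ω : ℝ) ^ 2 := ⟨_, rfl⟩
  rw [← hpdef] at hp hW ⊢
  have hN : (0 : ℝ) < (Fintype.card Ω : ℝ) := by exact_mod_cast Fintype.card_pos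
  have hε0 : 0 ≤ ε := by
    obtain ⟨a⟩ := ‹Nonempty Ω›
    have h1 := (abs_nonneg _).trans (hW a a)
    by_contra hneg
    rw [not_le] at hneg
    nlinarith
  have key := Vale.Agent.Results.P050.LocalSqrt.result H hH
    (Sym2.lift ⟨W, hsym⟩) p ε hp
    (by
      simp only [Sym2.lift_mk]
      rw [hpdef]
      field_simp)
    (by
      intro z
      induction z using Sym2.ind with
      | _ a b => simpa using hW a b)
    (by
      rcases hε with h | h
      · left
        rcases Nat.eq_zero_or_pos H.edgeFinset.card with h0 | h0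
        · rw [h0]
          norm_num
        · have h1 : 1 + ε ≤ (2 : ℝ) ^ ((1 : ℝ) / (H.edgeFinset.card : ℝ)) := by linarith
          calc (1 + ε) ^ H.edgeFinset.card
              ≤ ((2 : ℝ) ^ ((1 : ℝ) / (H.edgeFinset.card : ℝ))) ^ H.edgeFinset.card :=
                pow_le_pow_left₀ (by linarith) h1 _
            _ = 2 := by
                rw [← Real.rpow_natCast, ← Real.rpow_mul (by norm_num)]
                have : (H.edgeFinset.card : ℝ) ≠ 0 := by exact_mod_cast h0.ne'
                rw [one_div, inv_mul_cancel₀ this, Real.rpow_one]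
      · right
        obtain ⟨q, hq⟩ : ∃ q, q = (H.edgeFinset.card : ℝ) * (H.maxDegree : ℝ) := ⟨_, rfl⟩
        have hq0 : 0 ≤ q := by rw [hq]; positivity
        rw [← hq] at h
        have e : 144 * (H.edgeFinset.card : ℝ) * (H.maxDegree : ℝ) * ε ^ 2 = 144 * q * ε ^ 2 := by
          rw [hq]
          ring
        rw [e]
        rcases hq0.eq_or_lt with h0 | h0
        · rw [← h0]
          norm_num
        · have hs : 0 < Real.sqrt q := Real.sqrt_pos.mpr h0
          have h2 : ε * (12 * Real.sqrt q) ≤ 1 := by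
            rwa [le_div_iff₀ (by positivity)] at h
          have h3 : (ε * (12 * Real.sqrt q)) ^ 2 ≤ 1 := by
            apply pow_le_one₀ (by positivity) h2
          have h4 : (ε * (12 * Real.sqrt q)) ^ 2 = 144 * q * ε ^ 2 := by
            rw [mul_pow, mul_pow, Real.sq_sqrt hq0]
            ring
          rwa [h4] at h3)
  rw [le_div_iff₀ (by positivity)]
  refine key.trans (le_of_eq ?_)
  apply Finset.sum_congr rfl
  intro x _
  apply Finset.prod_congr rfl
  intro e _
  induction e using Sym2.ind with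
  | _ u v => simp

end Vale.Agent.Results.P050.DensityForm
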