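import Vale.Agent.P050.Simple
import Vale.Agent.P050.Final

/-!
# P050: the local Sidorenko inequality with radius `2^(1/m) - 1 > (log 2)/m`
-/

namespace Vale.Agent.Results.P050.LocalLinear

open Finset Vale.Agent.P050

/-- Let `H` be a bipartite graph with `m` edges and let `W` be a symmetric real weight function on a
finite set `Ω` (an edge-weighted complete graph with loops, i.e. a step kernel with equal steps)
of mean `p > 0` with `|W - p| ≤ ε p` everywhere, where `(1 + ε)^m ≤ 2`.  Then the homomorphism
density of `H` in `W` is at least `p^m`. -/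
theorem result {V Ω : Type*} [Fintype V] [DecidableEq V] [Fintype Ω] [Nonempty Ω]
    (H : SimpleGraph V) [DecidableRel H.Adj] (hH : H.Colorable 2)
    (W : Sym2 Ω → ℝ) (p ε : ℝ) (hp : 0 < p)
    (hmean : ∑ a, ∑ b, W s(a, b) = p * (Fintype.card Ω : ℝ) ^ 2)
    (hW : ∀ z, |W z - p| ≤ ε * p)
    (hε : (1 + ε) ^ H.edgeFinset.card ≤ 2) :
    p ^ H.edgeFinset.card * (Fintype.card Ω : ℝ) ^ Fintype.card V ≤
      ∑ x : V → Ω, ∏ e ∈ H.edgeFinset, W (e.map x) := by
  classical
  apply sidorenko_of_local H hH W p ε hp hmean hW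
  intro col E hE hcard _ U hU hzero hbound
  exact local_simple U hU hzero ε hbound col E hE (by rw [hcard]; exact hε)

end Vale.Agent.Results.P050.LocalLinear
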